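import Vale.Agent.P369.Diag.Core2

/-!
The entropy photon-number inequality for number-diagonal inputs of finite mean photon number, the
first one arbitrary and the second one nonincreasing in each occupation number, with the smaller
entropy; in particular for two inputs that are both nonincreasing in each occupation number.
-/

namespace Vale.Agent.Results.P369.DiagonalMonotone

open Vale.Agent.P369 Vale.Agent.P369.Diag

theorem result :
    (∀ s : ℝ, 0 ≤ s → 0 ≤ phN s ∧ thermalS (phN s) = s) ∧
    ∀ (n : ℕ), 1 ≤ n → ∀ (η : ℝ), 0 ≤ η → η ≤ 1 → ∀ (p q : (Fin n → ℕ) → ℝ),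
      (∀ k, 0 ≤ p k) → ∑' k, p k = 1 → Summable (fun k => (∑ m, (k m : ℝ)) * p k) →
      (∀ k, 0 ≤ q k) → ∑' k, q k = 1 → Summable (fun k => (∑ m, (k m : ℝ)) * q k) →
      (∀ i i' : Fin n → ℕ, i ≠ i' → outEntry η p q i i' = 0) ∧
        Summable (fun k => Real.negMulLog (p k)) ∧ Summable (fun k => Real.negMulLog (q k)) ∧
        Summable (fun k => Real.negMulLog (outEntry η p q k k)) ∧
        ((∀ (m : Fin n) k, q (Function.update k m (k m + 1)) ≤ q k) →
          η * phN (diagEntropy p / n) +
              (1 - η) * min (phN (diagEntropy p / n)) (phN (diagEntropy q / n)) ≤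
            phN (diagEntropy (fun k => outEntry η p q k k) / n)) ∧
        (((∀ (m : Fin n) k, q (Function.update k m (k m + 1)) ≤ q k) ∧
              diagEntropy q ≤ diagEntropy p ∨
            (∀ (m : Fin n) k, p (Function.update k m (k m + 1)) ≤ p k) ∧
              diagEntropy p ≤ diagEntropy q ∨
            (∀ (m : Fin n) k, p (Function.update k m (k m + 1)) ≤ p k) ∧
              (∀ (m : Fin n) k, q (Function.update k m (k m + 1)) ≤ q k)) →
          η * phN (diagEntropy p / n) + (1 - η) * phN (diagEntropy q / n) ≤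
            phN (diagEntropy (fun k => outEntry η p q k k) / n)) := by
  refine ⟨fun _ hs => ⟨phN_nonneg hs, thermalS_phN hs⟩,
    fun n hn η e0 e1 p q hp0 hp1 hpN hq0 hq1 hqN => ?_⟩
  have hp : IsState p := ⟨hp0, hp1, by simpa [tot] using hpN⟩
  have hq : IsState q := ⟨hq0, hq1, by simpa [tot] using hqN⟩
  have hout : ∀ i i', outEntry η p q i i' = if i = i' then bsOut η p q i else 0 := by
    intro i i'
    unfold outEntry
    simp_rw [tsum_amp]
    split_ifs with h
    · rfl
    · simp
  have he : (fun k => outEntry η p q k k) = bsOut η p q := funext fun k => by rw [hout, if_pos rfl]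
  have he' : (fun k => Real.negMulLog (outEntry η p q k k)) = Real.negMulLog ∘ bsOut η p q :=
    funext fun k => by rw [Function.comp_apply, ← he]
  refine ⟨fun i i' h => by rw [hout, if_neg h], summable_negMulLog hp.1 hp.le_one hp.2.2,
    summable_negMulLog hq.1 hq.le_one hq.2.2, ?_, fun hqd => ?_, fun h => ?_⟩
  · rw [he']
    exact summable_negMulLog (out_nonneg e0 e1 hp hq) (out_le_one e0 e1 hp hq)
      (summable_tot_out e0 e1 hp hq)
  · rw [he]; exact (epni2_of_core core2 n hn η e0 e1 p q hp hq hqd).2.2.2.2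
  · rw [he]
    rcases h with ⟨hqd, hS⟩ | ⟨hpd, hS⟩ | ⟨hpd, hqd⟩
    · exact epni2_of_core_le core2 n hn η e0 e1 p q hp hq hqd hS
    · exact epni2_of_core_ge core2 n hn η e0 e1 p q hp hq hpd hS
    · exact epni2_of_core_both core2 n hn η e0 e1 p q hp hq hpd hqd

end Vale.Agent.Results.P369.DiagonalMonotone
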