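import Vale.Agent.P369.Fock

/-!
The entropy photon-number inequality for every number of modes, every transmissivity and every pair
of number-diagonal inputs, arbitrarily correlated between modes, with at most one photon per mode.
-/

namespace Vale.Agent.Results.P369.SinglePhotonModes

open Vale.Agent.P369

theorem result :
    (∀ s : ℝ, 0 ≤ s → 0 ≤ phN s ∧ thermalS (phN s) = s) ∧
    ∀ (n : ℕ), 1 ≤ n → ∀ (η : ℝ), 0 ≤ η → η ≤ 1 → ∀ (p q : (Fin n → ℕ) → ℝ),
      IsBitState p → IsBitState q →
      (∀ i i' : Fin n → ℕ, i ≠ i' → outEntry η p q i i' = 0) ∧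
        η * phN (diagEntropy p / n) + (1 - η) * phN (diagEntropy q / n) ≤
          phN (diagEntropy (fun i => outEntry η p q i i) / n) :=
  ⟨fun _ hs => ⟨phN_nonneg hs, thermalS_phN hs⟩,
    fun _ hn _ e0 e1 _ _ hp hq =>
      ⟨fun i i' h => by rw [outEntry_eq hp hq, if_neg h], main hn e0 e1 hp hq⟩⟩

end Vale.Agent.Results.P369.SinglePhotonModes
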